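import Vale.Agent.P210.MathlibUsed

open scoped ENNReal ContDiff
open MeasureTheory Set

namespace Vale.Agent.P210

/-- Euclidean space of dimension `n`. -/
abbrev E (n : ℕ) := EuclideanSpace ℝ (Fin n)

/-- Partial derivative in the `i`-th coordinate direction. -/
noncomputable def pd {n : ℕ} (i : Fin n) (f : E n → ℝ) (x : E n) : ℝ :=
  fderiv ℝ f x (EuclideanSpace.single i 1)

/-- A smooth Riemannian metric on the set `Ω` of `ℝⁿ`, given by its matrix of coefficients. -/
structure IsRiemMetricOn {n : ℕ} (Ω : Set (E n)) (g : E n → Matrix (Fin n) (Fin n) ℝ) :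
    Prop where
  smooth : ∀ i j, ContDiffOn ℝ ∞ (fun x => g x i j) Ω
  posDef : ∀ x ∈ Ω, (g x).PosDef

/-- Christoffel symbols `Γ^k_{ij}` of the Levi-Civita connection of `g`. -/
noncomputable def christoffel {n : ℕ} (g : E n → Matrix (Fin n) (Fin n) ℝ) (k i j : Fin n)
    (x : E n) : ℝ :=
  (1 / 2) * ∑ l, (g x)⁻¹ k l *
    (pd i (fun y => g y j l) x + pd j (fun y => g y i l) x - pd l (fun y => g y i j) x)

/-- Ricci curvature `R_{ij} = ∂_k Γ^k_{ij} - ∂_j Γ^k_{ik} + Γ^k_{kl} Γ^l_{ij} - Γ^k_{jl} Γ^l_{ik}`. -/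
noncomputable def ricci {n : ℕ} (g : E n → Matrix (Fin n) (Fin n) ℝ) (i j : Fin n)
    (x : E n) : ℝ :=
  ∑ k, (pd k (christoffel g k i j) x - pd j (christoffel g k i k) x
    + ∑ l, (christoffel g k k l x * christoffel g l i j x
      - christoffel g k j l x * christoffel g l i k x))

/-- Scalar curvature `g^{ij} R_{ij}`. -/
noncomputable def scal {n : ℕ} (g : E n → Matrix (Fin n) (Fin n) ℝ) (x : E n) : ℝ :=
  ∑ i, ∑ j, (g x)⁻¹ i j * ricci g i j x

/-- Piecewise `C¹` curves `γ : [0,1] → Ω` from `x` to `y`. -/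
structure IsCurve {n : ℕ} (Ω : Set (E n)) (x y : E n) (γ : ℝ → E n) : Prop where
  source : γ 0 = x
  target : γ 1 = y
  cont : ContinuousOn γ (Icc 0 1)
  mem : ∀ t ∈ Icc (0 : ℝ) 1, γ t ∈ Ω
  c1 : ∃ s : Set ℝ, s.Finite ∧ ∀ t ∈ Ioo (0 : ℝ) 1 \ s, ContDiffAt ℝ 1 γ t

/-- The length of a curve on `[0,1]` for the metric `g`. -/
noncomputable def len {n : ℕ} (g : E n → Matrix (Fin n) (Fin n) ℝ) (γ : ℝ → E n) : ℝ≥0∞ :=
  ∫⁻ t in Icc (0 : ℝ) 1,
    ENNReal.ofReal (Real.sqrt (∑ i, ∑ j, g (γ t) i j * deriv γ t i * deriv γ t j))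

/-- The Riemannian distance of `(Ω, g)`. -/
noncomputable def rdist {n : ℕ} (Ω : Set (E n)) (g : E n → Matrix (Fin n) (Fin n) ℝ)
    (x y : E n) : ℝ≥0∞ :=
  ⨅ (γ : ℝ → E n) (_ : IsCurve Ω x y γ), len g γ

/-- `(Ω, g)` is a complete metric space. -/
def IsCompleteOn {n : ℕ} (Ω : Set (E n)) (g : E n → Matrix (Fin n) (Fin n) ℝ) : Prop :=
  ∀ u : ℕ → E n, (∀ i, u i ∈ Ω) →
    (∀ ε : ℝ≥0∞, 0 < ε → ∃ N, ∀ i ≥ N, ∀ j ≥ N, rdist Ω g (u i) (u j) < ε) →
    ∃ x ∈ Ω, ∀ ε : ℝ≥0∞, 0 < ε → ∃ N, ∀ i ≥ N, rdist Ω g (u i) x < ε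

/-- The closed simplex spanned by the finite set `s` of vertices, in barycentric coordinates. -/
def face {V : Type} (s : Finset V) : Set (V → ℝ) :=
  {w | (∀ v, 0 ≤ w v) ∧ (∀ v, v ∉ s → w v = 0) ∧ ∑ v ∈ s, w v = 1}

/-- The geometric realization of an abstract simplicial complex, in barycentric coordinates. -/
def Realization {V : Type} (K : PreAbstractSimplicialComplex V) : Type :=
  {w : V → ℝ // ∃ s ∈ K.faces, w ∈ face s}

/-- The inclusion of a closed simplex of `K` in the realization of `K`. -/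
def faceMap {V : Type} (K : PreAbstractSimplicialComplex V) (s : K.faces) (w : face s.1) :
    Realization K :=
  ⟨w.1, s.1, s.2, w.2⟩

/-- The weak topology on the realization: a set is open iff its trace on every closed simplex is
relatively open. -/
instance {V : Type} (K : PreAbstractSimplicialComplex V) : TopologicalSpace (Realization K) :=
  ⨆ s : K.faces, TopologicalSpace.coinduced (faceMap K s) inferInstance

/-- There is a continuous map from `Ω` to a simplicial complex of dimension at most `d` all of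
whose fibres have diameter at most `C` for the distance `dist`. -/
def UrysohnWidthLE {n : ℕ} (Ω : Set (E n)) (dist : E n → E n → ℝ≥0∞) (d : ℕ) (C : ℝ) : Prop :=
  ∃ (V : Type) (K : PreAbstractSimplicialComplex V) (f : Ω → Realization K),
    (∀ s ∈ K.faces, s.card ≤ d + 1) ∧ Continuous f ∧
      ∀ x y : Ω, f x = f y → dist x y ≤ ENNReal.ofReal C

end Vale.Agent.P210
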